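import Vale.Agent.P232.Main
import Vale.Agent.P232.Rigid.Wiring
import Vale.Agent.P232.Rigid.Core.Assemble
import Vale.Agent.P232.Rigid.Core.CaseB
import Vale.Agent.P232.Rigid.Core.Planar
import Vale.Agent.P232.Rigid.Core.Profile
import Vale.Agent.P232.OneDim.CaseB.Main
import Vale.Agent.P232.OneDim.CaseB.Strict
import Vale.Agent.P232.OneDim.CaseCStrict

/-!
# P232: the isoperimetric profile of the cubic torus and all minimisers
-/

open MeasureTheory Set

namespace Vale.Agent.Results.P232.Classification

open Vale.Agent.P232 Vale.Agent.P232.Rigid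

/-- For every volume the profile is the least of ball, tube and slab, and every minimiser is one of
these or the complement of one. -/
theorem result :
    (∀ V ∈ Ioo (0 : ℝ) 1, profile V = ENNReal.ofReal (candidate V)) ∧
      ∀ V ∈ Ioo (0 : ℝ) 1, ∀ E : Set R3, IsCompetitor E V → perimeter E = profile V →
        NamedShape V E ∨ NamedShape (1 - V) Eᶜ :=
  answer_of_sorted (smoothIso_of_caseB CaseB.stmtCaseB)
    (Core.stmtSorted_of_parts CaseB.caseB_strict stmtStrictC Core.stmtSlabCore
      Core.stmtBallProfile Core.stmtTubeProfile Core.stmtDiscSlices)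

end Vale.Agent.Results.P232.Classification
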